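import Vale.Agent.P004F.St
import Vale.Agent.P004R.Ext0
import Vale.Agent.P004K.Rc.Cyc

/-! # P004F, row FLD: the field and the Euler system exist -/

set_option autoImplicit false
set_option linter.all false

open NumberField Polynomial IntermediateField
open scoped NumberTheorySymbols Classical

noncomputable section

namespace Vale.Agent.P004F

open Vale.Agent.P022 Vale.Agent.P004K P004K.Rc
open Vale.Agent.P022D.W (dec)
open Vale.Agent.P022E.GW (Ov Fb)
open P004S (ov_dvd)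
open P004R.Xt (iz mem_below s_th smul_coe)
open P027M.M (io)
open Qx (Sp Ch)

namespace Fd

/-- the field -/
theorem ex_K {δ : ℕ} (h0 : 0 < δ) : ∃ (K : Type) (_ : Field K) (_ : NumberField K) (j : K →+* Qb)
    (θ : 𝓞 K), Iq K ∧ θ ^ 2 = -(δ : 𝓞 K) ∧ 0 < (JJ j θ).im := by
  have d0 : (0 : ℝ) < δ := Nat.cast_pos.2 h0
  obtain ⟨w, hw, im⟩ : ∃ w : Qb, w ^ 2 = -(δ : Qb) ∧ 0 < (io w).im := by
    obtain ⟨w, hw⟩ := IsAlgClosed.exists_pow_nat_eq (-(δ : Qb)) two_pos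
    rcases lt_trichotomy (io w).im 0 with h | h | h
    · exact ⟨-w, by rw [neg_sq, hw], by simpa using h⟩
    · have := congrArg (fun z => (io z).re) hw
      simp [pow_two, h] at this
      nlinarith [mul_self_nonneg (io w).re]
    · exact ⟨w, hw, h⟩
  have int := (H443.algQb.isAlgebraic w).isIntegral
  have := adjoin.finiteDimensional int
  have nf : NumberField ℚ⟮w⟯ := {}
  have e : (AdjoinSimple.gen ℚ w) ^ 2 = -(δ : ℚ⟮w⟯) := Subtype.ext (by simpa using hw)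
  refine ⟨ℚ⟮w⟯, _, nf, algebraMap _ _, ⟨AdjoinSimple.gen ℚ w,
    IsIntegral.of_pow two_pos (e ▸ (isIntegral_natCast δ).neg)⟩, ⟨?_, ⟨fun f => ?_⟩⟩,
    RingOfIntegers.ext ((map_pow (algebraMap (𝓞 ℚ⟮w⟯) ℚ⟮w⟯) _ 2).trans (e.trans (by simp))), im⟩
  · rw [adjoin.finrank int]
    refine le_antisymm ?_ ((minpoly.two_le_natDegree_iff int).2 fun ⟨r, hr⟩ => ?_)
    · have m : (X ^ 2 + C (δ : ℚ)).Monic := monic_X_pow_add_C _ two_ne_zero
      exact (natDegree_le_of_dvd (minpoly.dvd ℚ w (by simp [hw])) m.ne_zero).trans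
        natDegree_X_pow_add_C.le
    · rw [← hr] at im
      simp at im
  · have := congrArg f e
    rw [map_pow, map_neg, map_natCast] at this
    nlinarith [sq_nonneg (f (AdjoinSimple.gen ℚ w))]

theorem hensel {d m R : ℤ} (h : R ∣ m ^ 2 - m + d) (c : IsCoprime (2 * m - 1) R) (k : ℕ) :
    ∃ m', R ∣ m' - m ∧ R ^ (k + 1) ∣ m' ^ 2 - m' + d := by
  induction k with
  | zero => exact ⟨m, by simp, by simpa using h⟩
  | succ k ih =>
    obtain ⟨x, ⟨z, hz⟩, w, hw⟩ := ih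
    obtain ⟨u, v, e⟩ := c.add_mul_left_left (2 * z)
    refine ⟨x - R ^ (k + 1) * w * u, ⟨z - R ^ k * w * u, by linear_combination hz⟩,
      w * v + R ^ k * (w * u) ^ 2, ?_⟩
    linear_combination hw - R ^ (k + 1) * w * e - 2 * R ^ (k + 1) * w * u * hz

theorem ex_rt {δ p : ℕ} {d : ℤ} (hd : (δ : ℤ) + 1 = 8 * d) (hp : p.Prime)
    (h : p ≠ 2 → J(-(δ : ℤ) | p) = 1) : ∃ t : ℤ, (p : ℤ) ∣ t ^ 2 - t + 2 * d := by
  by_cases p2 : p = 2
  · exact ⟨0, by simp [p2]⟩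
  have := Fact.mk hp
  have z2 : (2 : ZMod p) ≠ 0 := Ring.two_ne_zero (by rwa [ZMod.ringChar_zmod_n])
  obtain ⟨r, hr⟩ := ZMod.isSquare_of_jacobiSym_eq_one (h p2)
  obtain ⟨t, ht⟩ := ZMod.intCast_surjective ((1 + r) / 2)
  have e := congrArg (Int.cast : ℤ → ZMod p) hd
  refine ⟨t, (ZMod.intCast_zmod_eq_zero_iff_dvd _ p).1 (mul_left_cancel₀ (pow_ne_zero 2 z2) ?_)⟩
  rw [eq_div_iff z2] at ht
  push_cast at hr e ⊢
  linear_combination (2 * t + r - 1) * ht - hr - e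

variable {K : Type} [Field K] [NumberField K] {j : K →+* Qb} {ω θ η : 𝓞 K} {s : 𝓞 K →+* 𝓞 K}
  {δ M M' : ℕ} {β n : ℤ}

/-- the integral basis -/
theorem ex_om (hK : Iq K) (hδ : Squarefree δ) {d : ℤ} (hd : (δ : ℤ) + 1 = 8 * d)
    (hθ : θ ^ 2 = -(δ : 𝓞 K)) (im : 0 < (JJ j θ).im) :
    ∃ ω s, Qd (JJ j) ω s ∧ 2 * ω = 1 + θ ∧ s θ = -θ := by
  obtain ⟨ω₀, w1, w2⟩ := iq0 j hK
  obtain ⟨s, q⟩ := ex_qd (JJ_inj j) w1 w2
  have h0 := Nat.pos_of_ne_zero hδ.ne_zero
  have st := s_th q h0 hθ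
  obtain ⟨ω, e⟩ : ∃ ω : 𝓞 K, 2 * ω = 1 + θ := by
    have e1 := congrArg (algebraMap (𝓞 K) K) hθ
    have e2 := congrArg (Int.cast : ℤ → K) hd
    simp only [map_pow, map_neg, map_natCast] at e1
    push_cast at e2
    refine ⟨⟨(1 + algebraMap (𝓞 K) K θ) / 2, X ^ 2 - X + C (2 * d), by monicity!, ?_⟩,
      RingOfIntegers.ext (mul_div_cancel₀ _ (two_ne_zero' K))⟩
    simp only [eval₂_add, eval₂_sub, eval₂_X_pow, eval₂_X, eval₂_C]
    rw [eq_intCast]
    push_cast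
    linear_combination (1 / 4) * e1 - (1 / 4) * e2
  refine ⟨ω, s, ⟨q.inj, fun a => ?_, ?_, q.cj⟩, e, st⟩
  · obtain ⟨x, hx⟩ := q.tr a
    obtain ⟨n, hn⟩ := q.nm a
    obtain ⟨r, hr⟩ := q.int_of (a := (a - s a) * θ) (by rw [map_mul, map_sub, q.ss, st]; ring)
    have e1 : r ^ 2 = δ * (4 * n - x ^ 2) := q.cast_inj (by
      push_cast
      rw [← hr, ← hx, ← hn, mul_pow, hθ]
      ring)
    obtain ⟨t, rfl⟩ := ((Int.squarefree_natCast.2 hδ).dvd_pow_iff_dvd two_ne_zero).1 ⟨_, e1⟩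
    have t0 : θ ≠ 0 := fun z => by simp [z] at im
    have e2 : a - s a = -(t * θ) := mul_right_cancel₀ t0 (by
      push_cast at hr
      linear_combination hr + t * hθ)
    have e3 := congrArg s e
    rw [map_mul, map_add, map_one, st, map_ofNat] at e3
    obtain ⟨k, hk⟩ := q.int_of (a := a + t * ω) (mul_left_cancel₀ two_ne_zero (by
      rw [map_add, map_mul, map_intCast]
      linear_combination t * e3 - t * e - 2 * e2))
    exact ⟨k, -t, by push_cast; linear_combination hk⟩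
  · have := congrArg (fun z => (JJ j z).im) e
    simp [map_ofNat] at this
    linarith

/-- a generator of trace `-β` and norm `n` -/
structure Ge (j : K →+* Qb) (η : 𝓞 K) (s : 𝓞 K →+* 𝓞 K) (β n : ℤ) : Prop where
  q : Qd (JJ j) η s
  tr : η + s η = -β
  nm : η * s η = n

theorem Ge.upm (g : Ge j η s β n) (h : 4 < 4 * n - β ^ 2) : Upm K := fun u => by
  have k (a : 𝓞 K) : ∃ x y : ℤ, a = x + y * η ∧ a * s a = (x ^ 2 - β * x * y + n * y ^ 2 : ℤ) := by
    obtain ⟨x, y, rfl⟩ := g.q.sp a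
    refine ⟨x, y, rfl, ?_⟩
    rw [map_add, map_mul, map_intCast, map_intCast]
    push_cast
    linear_combination x * y * g.tr + y ^ 2 * g.nm
  obtain ⟨x, y, e, e1⟩ := k u
  obtain ⟨m, e2⟩ := g.q.nm (u⁻¹ : (𝓞 K)ˣ)
  have e3 : (x ^ 2 - β * x * y + n * y ^ 2) * m = 1 := g.q.cast_inj (by
    rw [Int.cast_mul, ← e1, ← e2, mul_mul_mul_comm, ← map_mul, u.mul_inv, map_one, Int.cast_one,
      one_mul])
  have e4 := Int.le_of_dvd one_pos ⟨_, e3.symm⟩
  obtain rfl : y = 0 := by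
    by_contra z
    nlinarith [sq_nonneg (2 * x - β * y), sq_pos_of_ne_zero z]
  rcases Int.isUnit_iff.1 (isUnit_of_dvd_one (a := x) ⟨x * m, by linear_combination -e3⟩)
    with rfl | rfl
  · exact .inl (Units.ext (by simpa using e))
  · exact .inr (Units.ext (by simpa using e))

theorem cop (g : Ge j η s β n) (c : IsCoprime β (M : ℤ)) {I I' : Ideal (𝓞 K)}
    (h : (M : 𝓞 K) ∈ I ⊔ I') (h' : η + s η ∈ I ⊔ I') : I ⊔ I' = ⊤ := by
  obtain ⟨u, v, e⟩ := c
  have e' : (u : 𝓞 K) * β + v * M = 1 := by exact_mod_cast congrArg (Int.cast : ℤ → 𝓞 K) e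
  have := Ideal.sub_mem _ (Ideal.mul_mem_left _ (v : 𝓞 K) h) (Ideal.mul_mem_left _ (u : 𝓞 K) h')
  rw [g.tr, show (v : 𝓞 K) * M - u * -β = 1 by linear_combination e'] at this
  exact (Ideal.eq_top_iff_one _).2 this

theorem m1 (x y : 𝓞 K) : x ∈ Ideal.span {x, y} := Ideal.subset_span (by simp)

theorem m2 (x y : 𝓞 K) : y ∈ Ideal.span {x, y} := Ideal.subset_span (by simp)

theorem Ge.sp (g : Ge j η s β n) (c : IsCoprime β (M : ℤ)) (d : (M : ℤ) ∣ n) :
    Sp M (Ideal.span {(M : 𝓞 K), η}) (Ideal.span {(M : 𝓞 K), s η}) := by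
  obtain ⟨k, rfl⟩ := d
  have tr := g.tr
  have nm := g.nm
  push_cast at nm
  refine ⟨⟨fun x => ⟨fun h => ?_, ?_⟩, fun a => ?_⟩, cop g c (Ideal.mem_sup_left (m1 _ _))
    (Submodule.add_mem_sup (m2 _ _) (m2 _ _)), le_antisymm ?_ ?_⟩
  · obtain ⟨a, b, e⟩ := Ideal.mem_span_pair.1 h
    obtain ⟨a0, a1, rfl⟩ := g.q.sp a
    obtain ⟨b0, b1, rfl⟩ := g.q.sp b
    exact ⟨a0 - b1 * k, (g.q.ext (v := 0) (v' := a1 * M + b0 - b1 * β) (by
      push_cast
      linear_combination -e + b1 * η * tr - b1 * nm)).1⟩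
  · rintro ⟨y, rfl⟩
    push_cast
    exact Ideal.mul_mem_right _ _ (m1 _ _)
  · obtain ⟨u, v, rfl⟩ := g.q.sp a
    exact ⟨u, by rw [add_sub_cancel_left]; exact Ideal.mul_mem_left _ _ (m2 _ _)⟩
  · rw [Ideal.span_pair_mul_span_pair, Ideal.span_le]
    simp only [Set.insert_subset_iff, Set.singleton_subset_iff, SetLike.mem_coe,
      Ideal.mem_span_singleton]
    exact ⟨dvd_mul_right _ _, dvd_mul_right _ _, dvd_mul_left _ _, k, nm⟩
  · obtain ⟨u, v, e⟩ := c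
    have e' : (u : 𝓞 K) * β + v * M = 1 := by exact_mod_cast congrArg (Int.cast : ℤ → 𝓞 K) e
    have := Ideal.sub_mem _ (Ideal.mul_mem_left _ (v : 𝓞 K)
      (Ideal.mul_mem_mul (m1 (M : 𝓞 K) η) (m1 (M : 𝓞 K) (s η)))) (Ideal.mul_mem_left _ (u : 𝓞 K)
        (Ideal.add_mem _ (Ideal.mul_mem_mul (m2 (M : 𝓞 K) η) (m1 (M : 𝓞 K) (s η)))
          (Ideal.mul_mem_mul (m1 (M : 𝓞 K) η) (m2 (M : 𝓞 K) (s η)))))
    rw [show (v : 𝓞 K) * (M * M) - u * (η * M + M * s η) = M by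
      linear_combination (M : 𝓞 K) * e' - u * M * tr] at this
    exact (Ideal.span_singleton_le_iff_mem _).2 this

variable {p : ℕ} {P : Ideal (𝓞 Qb)}

theorem Ge.below (g : Ge j η s β n) (o : Ov p P) (h : iz j η ∈ P) :
    below j P = Ideal.span {(p : 𝓞 K), η} := by
  refine le_antisymm (fun a ha => ?_) (Ideal.span_le.2 (Set.insert_subset_iff.2
    ⟨mem_below.2 (by rw [map_natCast]; exact o.2.2), Set.singleton_subset_iff.2 h⟩))
  obtain ⟨u, v, rfl⟩ := g.q.sp a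
  rw [mem_below, map_add, map_mul, map_intCast, Ideal.add_mem_iff_left _ (P.mul_mem_left _ h)] at ha
  obtain ⟨y, rfl⟩ := ov_dvd o ha
  push_cast
  exact add_mem (Ideal.mul_mem_right _ _ (m1 _ _)) (Ideal.mul_mem_left _ _ (m2 _ _))

theorem Ge.dec (g : Ge j η s β n) (o : Ov p P) (h : iz j η ∈ P) (c : ¬ (p : ℤ) ∣ β) :
    dec P ≤ GK j := fun γ hγ x => by
  have e : iz j η * (iz j η + β) = -n := by
    rw [← map_intCast (iz j) β, ← map_intCast (iz j) n, ← map_add, ← map_mul, ← map_neg]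
    exact congrArg _ (by linear_combination η * g.tr - g.nm)
  have e1 : γ • iz j η * (γ • iz j η + β) = -n := by
    have := congrArg (MulSemiringAction.toRingHom GQ (𝓞 Qb) γ) e
    rwa [map_mul, map_add, map_neg, map_intCast, map_intCast] at this
  have e2 : γ • iz j η = iz j η := by
    refine (mul_eq_zero.1 (show (γ • iz j η - iz j η) * (γ • iz j η + iz j η + β) = 0 by
      linear_combination e1 - e)).elim sub_eq_zero.1 fun z => absurd (ov_dvd o ?_) c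
    rw [← Ideal.add_mem_iff_right _ (P.add_mem ((hγ _).2 h) h), z]
    exact P.zero_mem
  have e3 (a : 𝓞 K) : γ (j a) = j a := by
    obtain ⟨u, v, rfl⟩ := g.q.sp a
    have : γ (j η) = j η := congrArg (fun z : 𝓞 Qb => (z : Qb)) e2
    simp [this]
  obtain ⟨a, b, -, rfl⟩ := IsFractionRing.div_surjective (A := 𝓞 K) x
  rw [map_div₀, map_div₀]
  exact congrArg₂ _ (e3 a) (e3 b)

/-- the choice of the generator -/
theorem ex_ge (hK : Iq K) (hδ : Squarefree δ) (h8 : δ % 8 = 7) (hθ : θ ^ 2 = -(δ : 𝓞 K))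
    (im : 0 < (JJ j θ).im) (S : Finset ℕ) (P : ℕ → Ideal (𝓞 Qb)) (o : ∀ p ∈ S, Ov p (P p))
    (h : ∀ p ∈ S, p ≠ 2 → J(-(δ : ℤ) | p) = 1) (k : ℕ) : ∃ η s β n, Ge j η s β n ∧ 2 * η = θ - β ∧
      β ^ 2 + δ = 4 * n ∧ ((∏ p ∈ S, p : ℕ) : ℤ) ^ (k + 1) ∣ n ∧
      ∀ p ∈ S, iz j η ∈ P p ∧ ¬ (p : ℤ) ∣ β := by
  obtain ⟨d, hd⟩ : ∃ d : ℤ, (δ : ℤ) + 1 = 8 * d := ⟨δ / 8 + 1, by omega⟩
  obtain ⟨ω, s, q, e, st⟩ := ex_om hK hδ hd hθ im
  have hd' : (δ : 𝓞 K) + 1 = 8 * d := by exact_mod_cast congrArg (Int.cast : ℤ → 𝓞 K) hd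
  have e1 := congrArg s e
  rw [map_mul, map_add, map_one, st, map_ofNat] at e1
  have f (t : ℤ) : (ω - t) * s (ω - t) = (t ^ 2 - t + 2 * d : ℤ) :=
    mul_left_cancel₀ (pow_ne_zero 2 two_ne_zero) (by
      rw [map_sub, map_intCast]
      push_cast
      linear_combination (2 * s ω - 2 * t) * e + (1 + θ - 2 * t) * e1 - hθ + hd')
  have pm (p) (hp : p ∈ S) {x : ℤ} (hx : (p : ℤ) ∣ x) : (x : 𝓞 Qb) ∈ P p := by
    obtain ⟨y, rfl⟩ := hx
    push_cast
    exact Ideal.mul_mem_right _ _ (o p hp).2.2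
  have ex (p : S) : ∃ t : ℤ, iz j (ω - t) ∈ P p := by
    obtain ⟨t, ht⟩ := ex_rt hd (o p p.2).1 (h p p.2)
    have := pm p p.2 ht
    rw [← map_intCast (iz j), ← f, map_mul] at this
    refine ((o p p.2).2.1.mem_or_mem this).elim (fun a => ⟨t, a⟩) fun a => ⟨1 - t, ?_⟩
    rw [← neg_mem_iff, ← map_neg] at a
    rwa [show ω - (1 - t : ℤ) = -s (ω - t) from mul_left_cancel₀ two_ne_zero (by
      rw [map_sub, map_intCast]
      push_cast
      linear_combination e + e1)]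
  choose t ht using ex
  obtain ⟨m, hm⟩ := Ideal.pi_quotient_surjective (I := fun p : S => Ideal.span {((p : ℕ) : ℤ)})
    (fun p p' a => (Ideal.isCoprime_span_singleton_iff _ _).2 (Nat.isCoprime_iff_coprime.2
      ((Nat.coprime_primes (o p p.2).1 (o p' p'.2).1).2 (Subtype.coe_ne_coe.2 a))))
    fun p => Ideal.Quotient.mk _ (t p)
  have mv (p) (hp : p ∈ S) {a b : ℤ} (c : (p : ℤ) ∣ a - b) (hb : iz j (ω - b) ∈ P p) :
      iz j (ω - a) ∈ P p := by
    have := (P p).sub_mem hb (pm p hp c)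
    rwa [← map_intCast (iz j), ← map_sub, Int.cast_sub, sub_sub, add_sub_cancel] at this
  have k1 (p) (hp : p ∈ S) {a : ℤ} (ha : iz j (ω - a) ∈ P p) :
      (p : ℤ) ∣ a ^ 2 - a + 2 * d ∧ ¬ (p : ℤ) ∣ 2 * a - 1 := by
    have d1 : (p : ℤ) ∣ a ^ 2 - a + 2 * d := ov_dvd (o p hp) (by
      rw [← map_intCast (iz j), ← f, map_mul]
      exact Ideal.mul_mem_right _ _ ha)
    refine ⟨d1, fun c => ?_⟩
    by_cases p2 : p = 2
    · subst p2
      omega
    have d2 : (p : ℤ) ∣ -δ := by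
      rw [show -(δ : ℤ) = (2 * a - 1) * (2 * a - 1) - 4 * (a ^ 2 - a + 2 * d) by linear_combination -hd]
      exact dvd_sub (c.mul_left _) (d1.mul_left _)
    have := h p hp p2
    rw [jacobiSym.mod_left, Int.emod_eq_zero_of_dvd d2, jacobiSym.zero_left (o p hp).1.one_lt] at this
    exact zero_ne_one this
  have k2 (p) (hp : p ∈ S) : iz j (ω - m) ∈ P p :=
    mv p hp (Ideal.mem_span_singleton.1 (Ideal.Quotient.eq.1 (hm ⟨p, hp⟩))) (ht ⟨p, hp⟩)
  obtain ⟨x, h1, h2⟩ := hensel (R := (∏ p ∈ S, p : ℕ)) (d := 2 * d) (m := m)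
    (Int.natCast_dvd.2 (Finset.prod_primes_dvd _ (fun p hp => (o p hp).1.prime)
      fun p hp => Int.natCast_dvd.1 (k1 p hp (k2 p hp)).1))
    (by
      rw [Nat.cast_prod]
      exact IsCoprime.prod_right fun p hp => ((Nat.prime_iff_prime_int.1
        (o p hp).1).irreducible.coprime_iff_not_dvd.2 (k1 p hp (k2 p hp)).2).symm) k
  refine ⟨ω - x, s, 2 * x - 1, _, ⟨⟨q.inj, fun a => ?_, by simpa using q.im, q.cj⟩,
    mul_left_cancel₀ two_ne_zero ?_, f x⟩, by push_cast; linear_combination e,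
    by linear_combination hd, h2, fun p hp => ?_⟩
  · obtain ⟨u, v, rfl⟩ := q.sp a
    exact ⟨u + v * x, v, by push_cast; ring⟩
  · rw [map_sub, map_intCast]
    push_cast
    linear_combination e + e1
  · have := mv p hp ((Int.natCast_dvd_natCast.2 (Finset.dvd_prod_of_mem _ hp)).trans h1) (k2 p hp)
    exact ⟨this, (k1 p hp this).2⟩

theorem ex_c : ∃ c : GQ, IsConj c := by
  let φ : Qb →+* ℂ := (IsAlgClosed.lift (R := ℚ) (S := Qb) (M := ℂ)).toRingHom
  let _ : Algebra Qb ℂ := φ.toAlgebra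
  have : IsScalarTower ℚ Qb ℂ := IsScalarTower.of_algebraMap_eq' (Subsingleton.elim _ _)
  exact ⟨(Complex.conjAe.restrictScalars ℚ).restrictNormal Qb, φ,
    AlgEquiv.restrictNormal_commutes (Complex.conjAe.restrictScalars ℚ) Qb⟩

end Fd

open Fd in
/-- **the field and the Euler system** -/
theorem fld (hh : HEEG) (hq : Qx.QEXP) : FLD := fun e => by
  have sub : ∀ p ∈ e.S', p ∈ e.S := fun p hp => List.mem_of_mem_filter hp
  obtain ⟨u0, hu0, s0, a0, a1, hT⟩ := hq _ _ _ _ _ _ _ _ _ _ e.rn e.par e.S' (e.nd.filter _)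
    fun p hp => (e.ov p (sub p hp)).1
  obtain ⟨T, hT⟩ := hT e.P fun p hp => (e.ov p (sub p hp)).2
  refine ⟨T + 64 * e.N ^ 4 + 5, fun δ' hδ ad => ?_⟩
  obtain ⟨K, _, _, j, θ, hK, hθ, im⟩ := ex_K (δ := δ') (by omega)
  have N0 : e.N ≠ 0 := fun z => by
    have := e.ok.cop
    rw [z, Nat.coprime_zero_left] at this
    exact e.ok.one.ne' this
  have inS (p : ℕ) (hp : p.Prime) (d : p ∣ e.N * e.δ) : p ∈ e.S :=
    by_contra fun a => (e.bad p hp a).1 d
  obtain ⟨η, s, β, n, g, e1, e2, dn, hp⟩ := ex_ge hK ad.sq ad.m8 hθ im e.S.toFinset e.P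
    (fun p hp => e.ov p (List.mem_toFinset.1 hp)) (fun p hp => ad.spl p (List.mem_toFinset.1 hp))
    (4 * e.N)
  simp only [List.mem_toFinset] at hp
  have R0 : ∏ p ∈ e.S.toFinset, p ≠ 0 :=
    Finset.prod_ne_zero_iff.2 fun p hp => (e.ov p (List.mem_toFinset.1 hp)).1.ne_zero
  have dR (p) (h : p ∈ e.S) : p ∣ ∏ p ∈ e.S.toFinset, p :=
    Finset.dvd_prod_of_mem _ (List.mem_toFinset.2 h)
  have d4 : ((4 * e.N : ℕ) : ℤ) ∣ n := by
    refine .trans ?_ ((pow_dvd_pow _ (Nat.le_succ _)).trans dn)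
    exact_mod_cast (Nat.dvd_pow_self_iff (by omega) R0).2 fun p a => by
      obtain ⟨a1, a2, -⟩ := Nat.mem_primeFactors.1 a
      refine Nat.mem_primeFactors.2 ⟨a1, dR p ?_, R0⟩
      rcases (Nat.Prime.dvd_mul a1).1 a2 with b | b
      · rw [(Nat.prime_dvd_prime_iff_eq a1 Nat.prime_two).1 (a1.dvd_of_dvd_pow (n := 2) b)]
        exact e.two
      · exact inS p a1 (b.mul_right _)
  have cN : IsCoprime β (e.N : ℤ) := Int.isCoprime_iff_gcd_eq_one.2
    (Nat.eq_one_iff_not_exists_prime_dvd.2 fun p a d => (hp p (inS p a ((Int.natCast_dvd_natCast.1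
      ((Int.natCast_dvd_natCast.2 d).trans (Int.gcd_dvd_right _ _))).mul_right _))).2
        ((Int.natCast_dvd_natCast.2 d).trans (Int.gcd_dvd_left _ _)))
  have cp (p) (h : p ∈ e.S) : IsCoprime β (p : ℤ) :=
    ((Nat.prime_iff_prime_int.1 (e.ov p h).1).irreducible.coprime_iff_not_dvd.2 (hp p h).2).symm
  have le (p) (h : p ∈ e.S) := g.dec (e.ov p h) (hp p h).1 (hp p h).2
  have fb (p : ℕ) : ∃ φ : GQ, p ∈ e.S → Fb p (e.P p) φ := by
    by_cases h : p ∈ e.S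
    · exact (P022D.W.exists_phi (e.ov p h).1 (e.ov p h).2.1 (e.ov p h).2.2).imp fun _ a _ => a
    · exact ⟨1, fun a => absurd a h⟩
  choose φ hφ using fb
  have up := g.upm (by omega)
  have ch (S : List ℕ) (hS : ∀ p ∈ S, p ∈ e.S) : Ch j e.N (Ideal.span {(e.N : 𝓞 K), η})
      (Ideal.span {(e.N : 𝓞 K), s η}) S e.P (fun p => Ideal.span {(p : 𝓞 K), s η}) φ :=
    ⟨g.sp cN ((Int.natCast_dvd_natCast.2 (dvd_mul_left _ _)).trans d4), fun p h => by
      rw [g.below (e.ov p (hS p h)) (hp p (hS p h)).1]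
      exact g.sp (cp p (hS p h)) ((Int.natCast_dvd_natCast.2 (dR p (hS p h))).trans
        ((dvd_pow_self _ (Nat.succ_ne_zero _)).trans dn)), fun p h => by
      rw [g.below (e.ov p (hS p h)) (hp p (hS p h)).1]
      exact ⟨cop g cN (Ideal.mem_sup_left (m1 _ _))
        (add_comm η _ ▸ Submodule.add_mem_sup (m2 _ _) (m2 _ _)),
        cop g cN (Ideal.mem_sup_left (m1 _ _)) (Submodule.add_mem_sup (m2 _ _) (m2 _ _))⟩,
      fun p h => le p (hS p h) (P022D.W.phi_mem (e.ov p (hS p h)).1 (e.ov p (hS p h)).2.1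
        (hφ p (hS p h))), fun p h => hφ p (hS p h)⟩
  obtain ⟨Y, M, M0, hY⟩ := hh K j hK up _ _ _ _ _ _ _ _ _ _ _ e.rn e.par (ch e.S fun _ => id).lev.cn
  obtain ⟨c, hc⟩ := ex_c
  exact ⟨{ δ' := δ'
           β := β
           adm := ad
           dat := ⟨e.ok, ad.sq, ad.m8, fun p a b d => ad.spl p (inS p a d) b, by omega, by
             obtain ⟨y, rfl⟩ := d4
             exact ⟨y, by rw [e2]; push_cast; ring⟩⟩
           K := K
           j := j
           iq := hK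
           upm := up
           θ := θ
           η := η
           I := _
           I' := _
           Q := _
           φ := φ
           th := hθ
           im := im
           mem := m2 _ _
           eta := e1
           ch := ch e.S fun _ => id
           le := le
           c := c
           cc := hc
           Y := Y
           M := M
           M0 := M0
           hg := fun c a b => (hY c a b).1
           fx := fun c a b => (hY c a b).2.1
           ine := fun c l n t a b h1 h2 h3 => ((hY c a b).2.2 l n t h1 h2 h3).1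
           spl := fun c l n t a b h1 h2 h3 => ((hY c a b).2.2 l n t h1 h2 h3).2
           qx := fun c a b g hg p h => (hT δ' (by omega) ad.sq K j hK θ hθ _ _ _ φ (ch e.S' sub) c a b
             (Y c) (hY c a (Nat.Coprime.coprime_mul_right_right b)).1 g hg p h).1 }, rfl⟩

end Vale.Agent.P004F
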